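import Vale.Agent.Lib.P235.Final

namespace Vale.Agent.Results.P235.EdgeGlued

open Vale.Agent.P235

/-- For every `p` there is a constant `C` such that every connected graph `G` that is a minor of a
connected graph `H` obtained from graphs of pathwidth at most `p` by repeatedly gluing along
vertices and edges satisfies `c₁(G) ≤ C`. -/
theorem result : ∀ p : ℕ, ∃ C : ℝ, ∀ (W V : Type) [Fintype W] [Fintype V]
    (G : SimpleGraph W) (H : SimpleGraph V), G.Connected → H.Connected →
    EdgeGlued H p Set.univ → IsMinor G H → C1LE G C :=
  fun p => ⟨cst p, fun _ _ _ _ _ _ hG hH h hm => main p hG hH h hm⟩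

end Vale.Agent.Results.P235.EdgeGlued
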