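import Vale.Agent.Lib.P235D.Final

namespace Vale.Agent.Results.P235.ThreeConnected

open Vale.Agent.P235D

/-- The `L₁` embedding conjecture of Gupta, Newman, Rabinovich and Sinclair for all minor-closed
families whose `3`-connected members have bounded pathwidth, with an explicit constant.

Let `F` be a family of finite graphs that contains every connected minor of each of its members,
and suppose that the `3`-connected members of `F` have pathwidth at most `p`.  Then
`c₁(G) ≤ 2400 ^ (2 * p + 9)` for every connected `G` in `F`: for all positive edge lengths `ℓ` the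
shortest-path metric of `(G, ℓ)` embeds into some `ℓ₁ᵏ` with distortion at most
`2400 ^ (2 * p + 9)`. -/
theorem result (p : ℕ) (F : (V : Type) → SimpleGraph V → Prop)
    (hminor : ∀ (V W : Type) [Finite V] [Finite W] (G : SimpleGraph V) (H : SimpleGraph W),
      G.Connected → IsMinor G H → F W H → F V G)
    (h3 : ∀ (V : Type) [Finite V] (G : SimpleGraph V), F V G → ThreeConnected G →
      PathwidthLE G p) :
    ∀ (V : Type) [Finite V] (G : SimpleGraph V), G.Connected → F V G →
      ∀ ℓ : Sym2 V → ℝ, (∀ e ∈ G.edgeSet, 0 < ℓ e) →
        ∃ (k : ℕ) (f : V → Fin k → ℝ), ∀ x y : V,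
          pathDist G ℓ x y ≤ ∑ i, |f x i - f y i| ∧
          ∑ i, |f x i - f y i| ≤ 2400 ^ (2 * p + 9) * pathDist G ℓ x y :=
  fun V _ G hG hF ℓ hℓ => main p F hminor h3 V G hG hF ℓ hℓ

end Vale.Agent.Results.P235.ThreeConnected
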